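import Vale.Agent.P078.Local.Graph.Glue

/-!
# Moments of the pinched operator of a coloured net

`pmul N col` is the pinched operator `∑_c D_c x D_c` of a colouring. If every colour class inside
`B(o, m)` has norm at most `a`, then `‖(pmul)^n δ_o‖² ≤ (a²)^n` for `n ≤ m`.
-/

noncomputable section

namespace Vale.Agent.P078.Local.Colour

open Finset
open scoped ComplexConjugate

variable {ι : Type*}

theorem sum_form_add_smul (U : Finset ι) (x : ι → ι → ℂ) (c w : ι → ℂ) (t : ℂ) :
    (∑ l ∈ U, ∑ u ∈ U, conj (t * c l + w l) * x l u * (t * c u + w u))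
      = conj t * t * (∑ l ∈ U, ∑ u ∈ U, conj (c l) * x l u * c u)
        + conj t * (∑ l ∈ U, ∑ u ∈ U, conj (c l) * x l u * w u)
        + t * (∑ l ∈ U, ∑ u ∈ U, conj (w l) * x l u * c u)
        + ∑ l ∈ U, ∑ u ∈ U, conj (w l) * x l u * w u := by
  simp only [mul_sum, ← sum_add_distrib]
  refine sum_congr rfl fun l _ => sum_congr rfl fun u _ => ?_
  rw [map_add, map_mul]
  ring

/-- A Hermitian matrix with quadratic form at most `a` has norm at most `a`. -/
theorem sum_normSq_mul_le {U : Finset ι} {x : ι → ι → ℂ} {a : ℝ} (hx : IsHerm x) (ha : 0 < a)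
    (hop : OpLe U x a) (c : ι → ℂ) :
    ∑ u ∈ U, Complex.normSq (∑ v ∈ U, x u v * c v) ≤ a ^ 2 * ∑ u ∈ U, Complex.normSq (c u) := by
  set w : ι → ℂ := fun u => ∑ v ∈ U, x u v * c v with hw
  set Bcw := ∑ l ∈ U, ∑ u ∈ U, conj (c l) * x l u * w u with hBcw
  set Bwc := ∑ l ∈ U, ∑ u ∈ U, conj (w l) * x l u * c u with hBwc
  have hwc : Bwc = ((∑ u ∈ U, Complex.normSq (w u) : ℝ) : ℂ) := by
    rw [hBwc, Complex.ofReal_sum]
    refine sum_congr rfl fun l _ => ?_
    rw [Complex.normSq_eq_conj_mul_self, hw, mul_sum]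
    simp only [mul_assoc]
  have hcw : Bcw = conj Bwc := by
    rw [hBwc, hBcw, map_sum, sum_comm]
    refine sum_congr rfl fun l _ => ?_
    rw [map_sum]
    refine sum_congr rfl fun u _ => ?_
    simp only [map_mul, Complex.conj_conj, hx l u]
    ring
  have key : ∀ t : ℝ, (∑ l ∈ U, ∑ u ∈ U,
      conj ((t : ℂ) * c l + w l) * x l u * ((t : ℂ) * c u + w u)).re
        = t ^ 2 * (∑ l ∈ U, ∑ u ∈ U, conj (c l) * x l u * c u).re
          + 2 * t * ∑ u ∈ U, Complex.normSq (w u)
          + (∑ l ∈ U, ∑ u ∈ U, conj (w l) * x l u * w u).re := by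
    intro t
    rw [sum_form_add_smul, ← hBcw, ← hBwc, hcw, hwc, Complex.conj_ofReal, Complex.conj_ofReal]
    simp only [Complex.add_re, Complex.mul_re, Complex.mul_im, Complex.ofReal_re, Complex.ofReal_im]
    ring
  have par : (∑ l ∈ U, Complex.normSq ((a : ℂ) * c l + w l))
      + ∑ l ∈ U, Complex.normSq (((-a : ℝ) : ℂ) * c l + w l)
      = 2 * a ^ 2 * (∑ l ∈ U, Complex.normSq (c l)) + 2 * ∑ l ∈ U, Complex.normSq (w l) := by
    rw [mul_sum, mul_sum, ← sum_add_distrib, ← sum_add_distrib]
    refine sum_congr rfl fun l _ => ?_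
    simp only [Complex.normSq_apply, Complex.add_re, Complex.add_im, Complex.mul_re, Complex.mul_im,
      Complex.ofReal_re, Complex.ofReal_im]
    ring
  have h1 := (abs_le.1 (hop fun l => (a : ℂ) * c l + w l)).2
  have h2 := (abs_le.1 (hop fun l => ((-a : ℝ) : ℂ) * c l + w l)).1
  rw [key a] at h1
  rw [key (-a)] at h2
  have h3 : a * (∑ u ∈ U, Complex.normSq (w u)) ≤ a * (a ^ 2 * ∑ u ∈ U, Complex.normSq (c u)) := by
    have := congrArg (a * ·) par
    simp only [mul_add] at this
    linarith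
  exact le_of_mul_le_mul_left h3 ha

variable [Fintype ι] [DecidableEq ι] {D : ℕ} {γ : Type*} [DecidableEq γ] (N : Net ι D) (col : ι → γ)

/-- The pinched operator of a colouring. -/
def pmul (v : ι → ℂ) (u : ι) : ℂ := ∑ w, if col u = col w then N.x u w * v w else 0

/-- The images of the unit vector at `o`. -/
def pvec (o : ι) : ℕ → ι → ℂ
  | 0 => Pi.single o 1
  | k + 1 => pmul N col (pvec o k)

theorem pvec_supp (o : ι) : ∀ (k : ℕ) (u : ι), u ∉ N.ball o k → pvec N col o k u = 0
  | 0, u, h => by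
    rw [pvec, Pi.single_eq_of_ne]
    rintro rfl
    exact h (N.mem_ball_self _ _)
  | k + 1, u, h => by
    refine sum_eq_zero fun w _ => ?_
    split_ifs
    · by_contra hne
      obtain ⟨hx, hv⟩ := mul_ne_zero_iff.1 hne
      have hwk : w ∈ N.ball o k := by
        by_contra hw
        exact hv (pvec_supp o k w hw)
      exact h (N.mem_nbhd_succ hwk (N.symm u w (N.supp u w hx)))
    · rfl

/-- The moment of a colouring that paves `B(o, m)`. -/
theorem pvec_norm_le {o : ι} {m n : ℕ} {a : ℝ} (ha : 0 < a) (hn : n ≤ m)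
    (hop : ∀ (c : γ) (U : Finset ι), U ⊆ N.ball o m → (∀ u ∈ U, col u = c) → OpLe U N.x a) :
    ∑ u, Complex.normSq (pvec N col o n u) ≤ (a ^ 2) ^ n := by
  induction n with
  | zero =>
    rw [pvec, pow_zero, sum_eq_single o (fun b _ hb => by simp [hb]) (by simp)]
    simp
  | succ k ih =>
    have hk : k ≤ m := by omega
    rw [pow_succ']
    refine le_trans ?_ (mul_le_mul_of_nonneg_left (ih hk) (sq_nonneg a))
    set v := pvec N col o k
    set B := N.ball o m
    set cls : γ → Finset ι := fun c => B.filter fun u => col u = c with hcls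
    have hv : ∀ u, u ∉ B → v u = 0 := fun u hu =>
      pvec_supp N col o k u fun h => hu (N.ball_mono hk h)
    have hsub : ∑ u, Complex.normSq (pvec N col o (k + 1) u)
        = ∑ u ∈ B, Complex.normSq (pvec N col o (k + 1) u) :=
      (sum_subset (subset_univ B) fun u _ hu => by
        rw [pvec_supp N col o (k + 1) u fun h => hu (N.ball_mono hn h), map_zero]).symm
    have hsub' : ∑ u, Complex.normSq (v u) = ∑ u ∈ B, Complex.normSq (v u) :=
      (sum_subset (subset_univ B) fun u _ hu => by rw [hv u hu, map_zero]).symm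
    rw [hsub, hsub', ← sum_fiberwise_of_maps_to (fun u hu => mem_image_of_mem col hu),
      ← sum_fiberwise_of_maps_to (fun u hu => mem_image_of_mem col hu) (fun u => Complex.normSq (v u)),
      mul_sum]
    refine sum_le_sum fun c _ => ?_
    refine le_trans (le_of_eq (sum_congr rfl fun u hu => congrArg Complex.normSq ?_))
      (sum_normSq_mul_le N.herm ha (hop c (cls c) (filter_subset _ _) fun u hu => (mem_filter.1 hu).2) v)
    show pmul N col v u = ∑ w ∈ cls c, N.x u w * v w
    rw [pmul, ← sum_filter]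
    refine (sum_subset (fun w hw => ?_) fun w hw hw' => ?_).symm
    · exact mem_filter.2 ⟨mem_univ w, ((mem_filter.1 hu).2).trans (mem_filter.1 hw).2.symm⟩
    · rw [hv w fun h => hw' (mem_filter.2 ⟨h, (mem_filter.1 hw).2.symm.trans (mem_filter.1 hu).2⟩),
        mul_zero]

/-- Without hypotheses the moment is at most `1`. -/
theorem pvec_norm_le_one (o : ι) (n : ℕ) : ∑ u, Complex.normSq (pvec N col o n u) ≤ 1 := by
  simpa using pvec_norm_le N col (m := n) one_pos le_rfl
    fun _ U _ _ => OpLe.mono N.opLe (subset_univ U)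

end Vale.Agent.P078.Local.Colour
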