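import Vale.Agent.P078.Colour.Moment
import Vale.Agent.P078.Local.Loc.Sym
import Vale.Agent.P078.Local.Meas.Main

/-!
# The rule as a function of one seed per site

A site carries its seeds and coins of all phases (`Site`); the coins of phase markers play no role.
-/

noncomputable section

namespace Vale.Agent.P078.Local.Colour

open Finset

/-- The seed of one site. -/
abbrev Site (p : Par) : Type := (Fin p.Nph → Seed p) × (Fin p.Nph → Bool)

variable {ι : Type*} [Fintype ι] [DecidableEq ι] {p : Par}

/-- The seeds of a field. -/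
def seedsOf (F : ι → Site p) : Seeds ι p := fun n u => (F u).1 n

/-- The coins of a field; those of the markers are fixed. -/
def coinsOf (F : ι → Site p) : Coins ι p
  | (n, some u) => (F u).2 n
  | (_, none) => true

/-- The colour of `o`. -/
def colourOf (hp : p.Ok) (N : Net ι p.D) (F : ι → Site p) (o : ι) : Fin p.r :=
  (existsUnique_isColour (N := N) hp (seedsOf F) (coinsOf F) o).exists.choose

theorem colourOf_spec (hp : p.Ok) (N : Net ι p.D) (F : ι → Site p) (o : ι) :
    IsColour p N (seedsOf F) (coinsOf F) o (colourOf hp N F o) :=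
  (existsUnique_isColour (N := N) hp (seedsOf F) (coinsOf F) o).exists.choose_spec

theorem colourOf_eq_iff (hp : p.Ok) (N : Net ι p.D) (F : ι → Site p) (o : ι) (c : Fin p.r) :
    colourOf hp N F o = c ↔ IsColour p N (seedsOf F) (coinsOf F) o c :=
  ⟨fun h => h ▸ colourOf_spec hp N F o,
    fun h => (existsUnique_isColour hp _ _ o).unique (colourOf_spec hp N F o) h⟩

/-- Locality: the colour sees the net and the field within `p.depend`, up to gauge. -/
theorem colourOf_local (hp : p.Ok) {κ : Type*} [Fintype κ] [DecidableEq κ] (N : Net ι p.D)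
    (N' : Net κ p.D) (F : ι → Site p) (F' : κ → Site p) (o : ι) (f : ι → κ) (g : ι → ℂ)
    (hinj : Set.InjOn f (N.ball o p.depend : Set ι))
    (himg : (N.ball o p.depend).image f = N'.ball (f o) p.depend)
    (hiso : ∀ l ∈ N.ball o p.depend, ∀ u ∈ N.ball o p.depend,
      (u ∈ N.nb l ↔ f u ∈ N'.nb (f l)) ∧
        N'.x (f l) (f u) = g l * N.x l u * (starRingEnd ℂ) (g u))
    (hg : ∀ l ∈ N.ball o p.depend, ‖g l‖ = 1)
    (hF : ∀ l ∈ N.ball o p.depend, F' (f l) = F l) :
    colourOf hp N' F' (f o) = colourOf hp N F o := by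
  have h := localStmt p hp ι κ N N' (seedsOf F) (coinsOf F) (seedsOf F') (coinsOf F') o f g hinj himg
    hiso hg fun n l hl => ⟨by simp [seedsOf, hF l hl], by simp [coinsOf, hF l hl]⟩
  refine (colourOf_eq_iff hp N' F' (f o) _).2 ?_
  have hs := colourOf_spec hp N F o
  simp only [IsColour] at hs ⊢
  simpa [h, seedsOf, hF o (N.mem_ball_self o _)] using hs

/-- The colour is measurable in the entries. -/
theorem measurableSet_colourOf (hp : p.Ok) {Ω : Type*} [MeasurableSpace Ω] {nb : ι → Finset ι}
    (N : Ω → Net ι p.D) (hnb : ∀ w, (N w).nb = nb)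
    (hx : ∀ l u, Measurable fun w => (N w).x l u) (F : ι → Site p) (o : ι) (c : Fin p.r) :
    MeasurableSet {w | colourOf hp (N w) F o = c} := by
  simp only [colourOf_eq_iff]
  exact measurableSet_isColour hnb hx _ _ o c

/-- A field and the coins of the markers are seeds and coins. -/
def fieldEquiv : (ι → Site p) × (Fin p.Nph → Bool) ≃ Seeds ι p × Coins ι p where
  toFun t := (seedsOf t.1, fun sl : Slot ι p => sl.2.elim (t.2 sl.1) fun u : ι => (t.1 u).2 sl.1)
  invFun t := ((fun u : ι => ((fun n : Fin p.Nph => t.1 n u), fun n : Fin p.Nph => t.2 (n, some u))),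
    fun n : Fin p.Nph => t.2 (n, none))
  left_inv := fun _ => rfl
  right_inv := fun t => Prod.ext rfl (funext fun sl => by obtain ⟨n, _ | u⟩ := sl <;> rfl)

/-- An event of seeds and coins that ignores the marker coins. -/
theorem prob_field (q : Seeds ι p × Coins ι p → Prop) (q' : (ι → Site p) → Prop)
    (h : ∀ t : (ι → Site p) × (Fin p.Nph → Bool), q (fieldEquiv t) ↔ q' t.1) :
    prob q = prob q' := by
  classical
  rw [← prob_equiv fieldEquiv, prob_prod]
  rw [prob]
  refine congrArg avg (funext fun F => ?_)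
  refine Eq.trans ?_ (avg_const (α := Fin p.Nph → Bool) (if q' F then (1 : ℝ) else 0))
  rw [prob]
  refine congrArg avg (funext fun b => ?_)
  simp only [h]

theorem isColour_fieldEquiv (hp : p.Ok) (N : Net ι p.D) (t : (ι → Site p) × (Fin p.Nph → Bool))
    (o : ι) (c : Fin p.r) :
    IsColour p N (fieldEquiv t).1 (fieldEquiv t).2 o c ↔ colourOf hp N t.1 o = c := by
  rw [colourOf_eq_iff]
  have h := localStmt p hp ι ι N N (seedsOf t.1) (coinsOf t.1) (fieldEquiv t).1 (fieldEquiv t).2 o
    id (fun _ => 1) (Set.injOn_id _) (by simp) (fun l _ u _ => by simp) (fun _ _ => by simp)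
    fun n l _ => ⟨rfl, rfl⟩
  simp only [id_eq] at h
  simp only [IsColour, h]
  rfl

/-- Every colour has probability `1/r`. -/
theorem prob_colourOf (hp : p.Ok) (N : Net ι p.D) (o : ι) (c : Fin p.r) :
    prob (fun F : ι → Site p => colourOf hp N F o = c) = 1 / p.r := by
  rw [← symStmt p hp N o c]
  exact (prob_field _ _ fun t => isColour_fieldEquiv hp N t o c).symm

open Classical in
/-- The mean moment at `o`, when bad pavings of `B(o, m)` have probability at most `δ`. -/
theorem avg_pvec_le (hp : p.Ok) (N : Net ι p.D) {o : ι} {m n : ℕ} (hn : n ≤ m) {ε δ : ℝ}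
    (hε : 0 < ε)
    (hgoal : prob (fun t : Seeds ι p × Coins ι p =>
      ¬ ∀ (c : Fin p.r) (U : Finset ι), U ⊆ N.ball o m →
        (∀ u ∈ U, IsColour p N t.1 t.2 u c) → OpLe U N.x ε) ≤ δ) :
    avg (fun F : ι → Site p => ∑ u, Complex.normSq (pvec N (colourOf hp N F) o n u))
      ≤ (ε ^ 2) ^ n + δ := by
  have : Nonempty (Fin p.P) := ⟨⟨0, hp.P_pos⟩⟩
  have : Nonempty (Site p) := ⟨(fun _ => (Classical.arbitrary _, Equiv.refl _), fun _ => true)⟩
  set q' := fun F : ι → Site p => ¬ ∀ (c : Fin p.r) (U : Finset ι), U ⊆ N.ball o m →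
    (∀ u ∈ U, colourOf hp N F u = c) → OpLe U N.x ε
  rw [prob_field _ q' fun t => by simp only [q', isColour_fieldEquiv hp]] at hgoal
  calc avg (fun F : ι → Site p => ∑ u, Complex.normSq (pvec N (colourOf hp N F) o n u))
      ≤ avg (fun F : ι → Site p => (ε ^ 2) ^ n + if q' F then (1 : ℝ) else 0) :=
        avg_mono fun F => by
          by_cases hq : q' F
          · rw [if_pos hq]
            exact le_trans (pvec_norm_le_one N _ o n) (le_add_of_nonneg_left (by positivity))
          · rw [if_neg hq, add_zero]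
            exact pvec_norm_le N _ hε hn (not_not.1 hq)
    _ ≤ (ε ^ 2) ^ n + δ := by
        rw [avg_add, avg_const]
        refine add_le_add le_rfl (le_trans (le_of_eq ?_) hgoal)
        simp only [prob]
        exact congrArg avg (funext fun F => by by_cases hq : q' F <;> simp [hq])

end Vale.Agent.P078.Local.Colour
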